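import Vale.Agent.P281.H840.TS.C2a
import Vale.Agent.P281.H740.TS.Lin

/-!
# P281, project T-S: linear algebra of the markings (`Mark2`), of `wd` and of `wint`
-/

open Set Filter Metric MeasureTheory Vale.Agent.P272.K
open scoped Topology ContDiff ComplexConjugate ComplexOrder

noncomputable section

namespace Vale.Agent.P281.H747.TS

open Vale.Agent.P281.H64.TK Vale.Agent.P281.H64.TK.TS

section
variable {d : ℕ} {E Γ : Type} [TopologicalSpace E] [Group Γ] [MulAction Γ E]
variable {E' Γ' : Type} [TopologicalSpace E'] [Group Γ'] [MulAction Γ' E']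
variable {S : Sheets d E Γ} {S' : Sheets d E' Γ'}

theorem l2_ext {a b : L2 d} (h : ∀ u v, a u v = b u v) : a = b :=
  ContinuousLinearMap.ext fun u => ContinuousLinearMap.ext fun v => h u v

/-- Evaluation at `u`, `v`. -/
def ev (u v : Cm d) : L2 d →ₗ[ℂ] ℂ where
  toFun a := a u v
  map_add' _ _ := rfl
  map_smul' _ _ := rfl

theorem sum_ap {ι : Type} (s : Finset ι) (a : ι → L2 d) (u v : Cm d) :
    (∑ k ∈ s, a k) u v = ∑ k ∈ s, a k u v := map_sum (ev u v) a s

/-! ### Exact and closed forms -/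

theorem exact_congr {α α' : Fin S.N → Cm d → L2 d} (h : Exact S α)
    (e : ∀ i, ∀ z ∈ ball (0 : Cm d) 3, α i z = α' i z) : Exact S α' := by
  obtain ⟨β, hβ, h1⟩ := h
  exact ⟨β, hβ, fun i z hz hm u v => by rw [h1 i z hz hm u v, e i z hz]⟩

theorem f1_zero (V : Set E) : F1On S V (fun _ _ => (0 : L1 d)) where
  smooth _ _ _ _ := contDiffAt_const
  change _ _ _ _ _ _ _ _ _ _ := rfl

theorem f1_add_smul {V : Set E} {β β' : Fin S.N → Cm d → L1 d} (h : F1On S V β)
    (h' : F1On S V β') (c : ℂ) : F1On S V (fun i z => β i z + c • β' i z) where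
  smooth i z hz hv := (h.smooth i z hz hv).add ((h'.smooth i z hz hv).const_smul c)
  change i j z hz z' hz' hv ψ hψ v := by
    have e1 := h.change i j z hz z' hz' hv ψ hψ v
    have e2 := h'.change i j z hz z' hz' hv ψ hψ v
    simp only [ContinuousLinearMap.add_apply, ContinuousLinearMap.smul_apply, e1, e2]

theorem exact_zero : Exact S (fun _ _ => (0 : L2 d)) :=
  ⟨fun _ _ => 0, f1_zero univ, fun i z _ _ u v => by simp⟩

theorem exact_add_smul {α α' : Fin S.N → Cm d → L2 d} (h : Exact S α) (h' : Exact S α') (c : ℂ) :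
    Exact S (fun i z => α i z + c • α' i z) := by
  obtain ⟨β, hβ, h1⟩ := h
  obtain ⟨β', hβ', h1'⟩ := h'
  refine ⟨fun i z => β i z + c • β' i z, f1_add_smul hβ hβ' c, fun i z hz hm u v => ?_⟩
  have d1 : DifferentiableAt ℝ (β i) z := (hβ.smooth i z hz hm).differentiableAt (by simp)
  have d2 : DifferentiableAt ℝ (β' i) z := (hβ'.smooth i z hz hm).differentiableAt (by simp)
  have e : fderiv ℝ (fun z => β i z + c • β' i z) z = fderiv ℝ (β i) z + c • fderiv ℝ (β' i) z :=
    (d1.hasFDerivAt.add (d2.hasFDerivAt.const_smul c)).fderiv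
  have e1 := h1 i z hz hm u v
  have e2 := h1' i z hz hm u v
  rw [e]
  simp only [ContinuousLinearMap.add_apply, ContinuousLinearMap.smul_apply, ← e1, ← e2, smul_eq_mul]
  ring

theorem exact_smul {α : Fin S.N → Cm d → L2 d} (h : Exact S α) (c : ℂ) :
    Exact S (fun i z => c • α i z) :=
  exact_congr (exact_add_smul exact_zero h c) fun i z _ => l2_ext fun u v => zero_add (c * α i z u v)

theorem exact_add {α α' : Fin S.N → Cm d → L2 d} (h : Exact S α) (h' : Exact S α') :
    Exact S (fun i z => α i z + α' i z) :=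
  exact_congr (exact_add_smul h h' 1) fun i z _ => l2_ext fun u v => by
    show α i z u v + (1 : ℂ) * α' i z u v = α i z u v + α' i z u v
    ring

theorem exact_sub {α α' : Fin S.N → Cm d → L2 d} (h : Exact S α) (h' : Exact S α') :
    Exact S (fun i z => α i z - α' i z) :=
  exact_congr (exact_add_smul h h' (-1)) fun i z _ => l2_ext fun u v => by
    show α i z u v + (-1 : ℂ) * α' i z u v = α i z u v - α' i z u v
    ring

theorem exact_sum {ι : Type} (s : Finset ι) {α : ι → Fin S.N → Cm d → L2 d} (c : ι → ℂ)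
    (h : ∀ k ∈ s, Exact S (α k)) : Exact S (fun i z => ∑ k ∈ s, c k • α k i z) := by
  classical
  induction s using Finset.induction_on with
  | empty => simpa using exact_zero
  | insert a s ha ih =>
    refine exact_congr (exact_add_smul (ih fun k hk => h k (Finset.mem_insert_of_mem hk))
      (h a (Finset.mem_insert_self a s)) (c a)) fun i z _ => ?_
    refine l2_ext fun u v => ?_
    show (∑ k ∈ s, c k • α k i z) u v + c a * α a i z u v = (∑ k ∈ insert a s, c k • α k i z) u v
    rw [sum_ap, sum_ap, Finset.sum_insert ha, add_comm]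
    rfl

theorem cl2_congr {α α' : Fin S.N → Cm d → L2 d} (h : Cl2 S α)
    (e : ∀ i, ∀ z ∈ ball (0 : Cm d) 3, α i z = α' i z) : Cl2 S α' where
  smooth i z hz hm := (h.smooth i z hz hm).congr_of_eventuallyEq (by
      filter_upwards [isOpen_ball.mem_nhds hz] with w hw using (e i w hw).symm)
  alt i z hz hm u v := by rw [← e i z hz]; exact h.alt i z hz hm u v
  change i j z hz z' hz' hm ψ hψ u v := by
    rw [← e i z hz, ← e j z' hz']; exact h.change i j z hz z' hz' hm ψ hψ u v
  closed i z hz u v w := by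
    have : fderiv ℝ (α' i) z = fderiv ℝ (α i) z := Filter.EventuallyEq.fderiv_eq (by
      filter_upwards [isOpen_ball.mem_nhds hz] with w hw using (e i w hw).symm)
    rw [this]; exact h.closed i z hz u v w

theorem cl2_zero : Cl2 S (fun _ _ => (0 : L2 d)) := H740.TS.cl2_zero

theorem cl2_add_smul {α α' : Fin S.N → Cm d → L2 d} (h : Cl2 S α) (h' : Cl2 S α') (c : ℂ) :
    Cl2 S (fun i z => α i z + c • α' i z) := H740.TS.cl2_add h (H740.TS.cl2_smul c h')

theorem cl2_smul {α : Fin S.N → Cm d → L2 d} (h : Cl2 S α) (c : ℂ) :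
    Cl2 S (fun i z => c • α i z) :=
  H740.TS.cl2_smul c h

theorem cl2_add {α α' : Fin S.N → Cm d → L2 d} (h : Cl2 S α) (h' : Cl2 S α') :
    Cl2 S (fun i z => α i z + α' i z) :=
  H740.TS.cl2_add h h'

theorem cl2_sub {α α' : Fin S.N → Cm d → L2 d} (h : Cl2 S α) (h' : Cl2 S α') :
    Cl2 S (fun i z => α i z - α' i z) :=
  cl2_congr (cl2_add_smul h h' (-1)) fun i z _ => l2_ext fun u v => by
    show α i z u v + (-1 : ℂ) * α' i z u v = α i z u v - α' i z u v
    ring

theorem cl2_sum {ι : Type} (s : Finset ι) {α : ι → Fin S.N → Cm d → L2 d} (c : ι → ℂ)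
    (h : ∀ k ∈ s, Cl2 S (α k)) : Cl2 S (fun i z => ∑ k ∈ s, c k • α k i z) := by
  classical
  induction s using Finset.induction_on with
  | empty => simpa using cl2_zero
  | insert a s ha ih =>
    refine cl2_congr (cl2_add_smul (ih fun k hk => h k (Finset.mem_insert_of_mem hk))
      (h a (Finset.mem_insert_self a s)) (c a)) fun i z _ => ?_
    refine l2_ext fun u v => ?_
    show (∑ k ∈ s, c k • α k i z) u v + c a * α a i z u v = (∑ k ∈ insert a s, c k • α k i z) u v
    rw [sum_ap, sum_ap, Finset.sum_insert ha, add_comm]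
    rfl

/-! ### Complex conjugates -/

theorem sm_comp {F G : Type} [NormedAddCommGroup F] [NormedSpace ℝ F] [NormedAddCommGroup G]
    [NormedSpace ℝ G] (A : F →L[ℝ] G) {f : Cm d → F} {z : Cm d} (hf : ContDiffAt ℝ ∞ f z) :
    ContDiffAt ℝ ∞ (fun z => A (f z)) z :=
  A.contDiff.contDiffAt.comp z hf

theorem fd_comp {F G : Type} [NormedAddCommGroup F] [NormedSpace ℝ F] [NormedAddCommGroup G]
    [NormedSpace ℝ G] (A : F →L[ℝ] G) {f : Cm d → F} {z : Cm d} (hf : DifferentiableAt ℝ f z) :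
    fderiv ℝ (fun z => A (f z)) z = A.comp (fderiv ℝ f z) :=
  (A.hasFDerivAt.comp z hf.hasFDerivAt).fderiv

/-- The conjugate of a 1-form. -/
def cj1 (d : ℕ) : L1 d →L[ℝ] L1 d :=
  ContinuousLinearMap.compL ℝ (Cm d) ℂ ℂ (Complex.conjCLE : ℂ →L[ℝ] ℂ)

/-- The conjugate of a 2-form. -/
def cj2 (d : ℕ) : L2 d →L[ℝ] L2 d := ContinuousLinearMap.compL ℝ (Cm d) (L1 d) (L1 d) (cj1 d)

@[simp] theorem cj1_apply (b : L1 d) (u : Cm d) : cj1 d b u = conj (b u) := rfl

@[simp] theorem cj2_apply (a : L2 d) (u v : Cm d) : cj2 d a u v = conj (a u v) := rfl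

theorem exact_conj {α : Fin S.N → Cm d → L2 d} (h : Exact S α) :
    Exact S (fun i z => cj2 d (α i z)) := by
  obtain ⟨β, hβ, h1⟩ := h
  refine ⟨fun i z => cj1 d (β i z), ⟨fun i z hz hv => ?_, fun i j z hz z' hz' hv ψ hψ v => ?_⟩,
    fun i z hz hm u v => ?_⟩
  · exact sm_comp (F := L1 d) (G := L1 d) (cj1 d) (hβ.smooth i z hz hv)
  · simp only [cj1_apply, hβ.change i j z hz z' hz' hv ψ hψ v]
  · have d1 : DifferentiableAt ℝ (β i) z := (hβ.smooth i z hz hm).differentiableAt (by simp)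
    have e : fderiv ℝ (fun z => cj1 d (β i z)) z = (cj1 d).comp (fderiv ℝ (β i) z) :=
      fd_comp (F := L1 d) (G := L1 d) (cj1 d) d1
    have h2 := h1 i z hz hm u v
    rw [e]
    show conj (fderiv ℝ (β i) z u v) - conj (fderiv ℝ (β i) z v u) = conj (α i z u v)
    rw [← h2, map_sub]

theorem cl2_conj {α : Fin S.N → Cm d → L2 d} (h : Cl2 S α) : Cl2 S (fun i z => cj2 d (α i z)) where
  smooth i z hz hv := sm_comp (F := L2 d) (G := L2 d) (cj2 d) (h.smooth i z hz hv)
  alt i z hz hv u v := by simp only [cj2_apply, h.alt i z hz hv u v, map_neg]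
  change i j z hz z' hz' hv ψ hψ u v := by
    simp only [cj2_apply, h.change i j z hz z' hz' hv ψ hψ u v]
  closed i z hz u v w := by
    have d1 : DifferentiableAt ℝ (α i) z := (h.smooth i z hz (mem_univ _)).differentiableAt (by simp)
    have e : fderiv ℝ (fun z => cj2 d (α i z)) z = (cj2 d).comp (fderiv ℝ (α i) z) :=
      fd_comp (F := L2 d) (G := L2 d) (cj2 d) d1
    have h2 := h.closed i z hz u v w
    rw [e]
    show conj (fderiv ℝ (α i) z u v w) + conj (fderiv ℝ (α i) z v w u) +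
      conj (fderiv ℝ (α i) z w u v) = 0
    rw [← map_add, ← map_add, h2, map_zero]

theorem cj2_of_real {α : Fin S.N → Cm d → L2 d} (h : Real2 S α) (i : Fin S.N) {z : Cm d}
    (hz : z ∈ ball (0 : Cm d) 3) : cj2 d (α i z) = α i z := by
  ext u v
  rw [cj2_apply, Complex.conj_eq_iff_im.2 (h i z hz u v)]

/-! ### Pull-backs -/

theorem pull2_add_smul {τ : E → E'} {α β : Fin S.N → Cm d → L2 d} {α' β' : Fin S'.N → Cm d → L2 d}
    (h : Pull2 S S' τ α α') (h' : Pull2 S S' τ β β') (c : ℂ) :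
    Pull2 S S' τ (fun i z => α i z + c • β i z) (fun i z => α' i z + c • β' i z) := by
  intro i j z hz z' hz' ψ hψ u v
  have e1 := h i j z hz z' hz' ψ hψ u v
  have e2 := h' i j z hz z' hz' ψ hψ u v
  simp only [ContinuousLinearMap.add_apply, ContinuousLinearMap.smul_apply, e1, e2]

theorem pull2_zero {τ : E → E'} : Pull2 S S' τ (fun _ _ => 0) (fun _ _ => 0) := by
  intro i j z hz z' hz' ψ hψ u v
  simp

theorem pull2_sub {τ : E → E'} {α β : Fin S.N → Cm d → L2 d} {α' β' : Fin S'.N → Cm d → L2 d}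
    (h : Pull2 S S' τ α α') (h' : Pull2 S S' τ β β') :
    Pull2 S S' τ (fun i z => α i z - β i z) (fun i z => α' i z - β' i z) := by
  intro i j z hz z' hz' ψ hψ u v
  have e1 := h i j z hz z' hz' ψ hψ u v
  have e2 := h' i j z hz z' hz' ψ hψ u v
  simp only [ContinuousLinearMap.sub_apply, e1, e2]

theorem pull2_sum {τ : E → E'} {ι : Type} (s : Finset ι) {α : ι → Fin S.N → Cm d → L2 d}
    {α' : ι → Fin S'.N → Cm d → L2 d} (c : ι → ℂ) (h : ∀ k ∈ s, Pull2 S S' τ (α k) (α' k)) :
    Pull2 S S' τ (fun i z => ∑ k ∈ s, c k • α k i z) (fun i z => ∑ k ∈ s, c k • α' k i z) := by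
  intro i j z hz z' hz' ψ hψ u v
  rw [sum_ap, sum_ap]
  refine Finset.sum_congr rfl fun k hk => ?_
  show c k * α k i z u v = c k * α' k j z' (fderiv ℝ ψ z u) (fderiv ℝ ψ z v)
  rw [h k hk i j z hz z' hz' ψ hψ u v]

/-! ### Markings -/

theorem cl_unique {n : ℕ} (M : Mark2 S n) {α : Fin S.N → Cm d → L2 d} (hα : Cl2 S α)
    {x : Fin n → ℂ} (hx : Exact S (fun i z => α i z - ∑ k, x k • M.b k i z)) : M.cl α = x := by
  have h := exact_sub hx (M.ex α hα)
  have h2 := M.indep (M.cl α - x) (exact_congr h fun i z _ => by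
    refine l2_ext fun u v => ?_
    show (α i z u v - (∑ k, x k • M.b k i z) u v) - (α i z u v - (∑ k, M.cl α k • M.b k i z) u v) =
      (∑ k, (M.cl α - x) k • M.b k i z) u v
    rw [sum_ap, sum_ap, sum_ap, sub_sub_sub_cancel_left, ← Finset.sum_sub_distrib]
    refine Finset.sum_congr rfl fun k _ => ?_
    show M.cl α k * M.b k i z u v - x k * M.b k i z u v = (M.cl α k - x k) * M.b k i z u v
    ring)
  exact sub_eq_zero.1 h2

theorem cl_congr {n : ℕ} (M : Mark2 S n) {α α' : Fin S.N → Cm d → L2 d} (hα : Cl2 S α)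
    (e : ∀ i, ∀ z ∈ ball (0 : Cm d) 3, α i z = α' i z) : M.cl α = M.cl α' :=
  cl_unique M hα (exact_congr (M.ex α' (cl2_congr hα e)) fun i z hz => by rw [e i z hz])

theorem cl_add_smul {n : ℕ} (M : Mark2 S n) {α α' : Fin S.N → Cm d → L2 d} (hα : Cl2 S α)
    (hα' : Cl2 S α') (c : ℂ) :
    M.cl (fun i z => α i z + c • α' i z) = M.cl α + c • M.cl α' := by
  refine cl_unique M (cl2_add_smul hα hα' c) (exact_congr (exact_add_smul (M.ex α hα)
    (M.ex α' hα') c) fun i z _ => ?_)
  refine l2_ext fun u v => ?_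
  show (α i z u v - (∑ k, M.cl α k • M.b k i z) u v) + c * (α' i z u v -
    (∑ k, M.cl α' k • M.b k i z) u v) = (α i z u v + c * α' i z u v) -
    (∑ k, (M.cl α + c • M.cl α') k • M.b k i z) u v
  rw [sum_ap, sum_ap, sum_ap]
  have : ∑ k, ((M.cl α + c • M.cl α') k • M.b k i z) u v =
      ∑ k, (M.cl α k • M.b k i z) u v + c * ∑ k, (M.cl α' k • M.b k i z) u v := by
    rw [Finset.mul_sum, ← Finset.sum_add_distrib]
    refine Finset.sum_congr rfl fun k _ => ?_
    show (M.cl α k + c * M.cl α' k) * M.b k i z u v = M.cl α k * M.b k i z u v +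
      c * (M.cl α' k * M.b k i z u v)
    ring
  rw [this]
  ring

theorem cl_of_exact {n : ℕ} (M : Mark2 S n) {α : Fin S.N → Cm d → L2 d} (hα : Cl2 S α)
    (h : Exact S α) : M.cl α = 0 :=
  cl_unique M hα (exact_congr h fun i z _ => l2_ext fun u v => by
    show α i z u v = α i z u v - (∑ k, (0 : ℂ) • M.b k i z) u v
    rw [sum_ap]
    have : ∀ k, ((0 : ℂ) • M.b k i z) u v = 0 := fun k => zero_mul (M.b k i z u v)
    simp only [this, Finset.sum_const_zero, sub_zero])

theorem exact_of_cl {n : ℕ} (M : Mark2 S n) {α : Fin S.N → Cm d → L2 d} (hα : Cl2 S α)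
    (h : M.cl α = 0) : Exact S α :=
  exact_congr (M.ex α hα) fun i z _ => l2_ext fun u v => by
    show α i z u v - (∑ k, M.cl α k • M.b k i z) u v = α i z u v
    rw [sum_ap]
    have : ∀ k, (M.cl α k • M.b k i z) u v = 0 := fun k => by
      rw [h]; exact zero_mul (M.b k i z u v)
    simp only [this, Finset.sum_const_zero, sub_zero]

theorem cl_zero {n : ℕ} (M : Mark2 S n) : M.cl (fun _ _ => 0) = 0 :=
  cl_of_exact M cl2_zero exact_zero

theorem cl_smul {n : ℕ} (M : Mark2 S n) {α : Fin S.N → Cm d → L2 d} (hα : Cl2 S α) (c : ℂ) :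
    M.cl (fun i z => c • α i z) = c • M.cl α := by
  have := cl_add_smul M cl2_zero hα c
  rw [cl_zero, zero_add] at this
  rw [← this]
  exact cl_congr M (cl2_smul hα c) fun i z _ => l2_ext fun u v => (zero_add (c * α i z u v)).symm

theorem cl_add {n : ℕ} (M : Mark2 S n) {α α' : Fin S.N → Cm d → L2 d} (hα : Cl2 S α)
    (hα' : Cl2 S α') : M.cl (fun i z => α i z + α' i z) = M.cl α + M.cl α' := by
  have := cl_add_smul M hα hα' 1
  rw [one_smul] at this
  rw [← this]
  exact cl_congr M (cl2_add hα hα') fun i z _ => l2_ext fun u v => by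
    show α i z u v + α' i z u v = α i z u v + 1 * α' i z u v
    ring

theorem cl_sum {n : ℕ} (M : Mark2 S n) {ι : Type} (s : Finset ι)
    {α : ι → Fin S.N → Cm d → L2 d} (c : ι → ℂ) (h : ∀ k ∈ s, Cl2 S (α k)) :
    M.cl (fun i z => ∑ k ∈ s, c k • α k i z) = ∑ k ∈ s, c k • M.cl (α k) := by
  classical
  induction s using Finset.induction_on with
  | empty =>
    rw [Finset.sum_empty]
    refine (cl_congr M cl2_zero fun i z _ => l2_ext fun u v => ?_).symm.trans (cl_zero M)
    rw [sum_ap]; rfl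
  | insert a s ha ih =>
    have h1 := ih fun k hk => h k (Finset.mem_insert_of_mem hk)
    have h2 := cl_add_smul M (cl2_sum s c fun k hk => h k (Finset.mem_insert_of_mem hk))
      (h a (Finset.mem_insert_self a s)) (c a)
    rw [Finset.sum_insert ha, ← h1, add_comm (c a • M.cl (α a)), ← h2]
    refine cl_congr M (cl2_sum _ c h) fun i z _ => l2_ext fun u v => ?_
    show (∑ k ∈ insert a s, c k • α k i z) u v = (∑ k ∈ s, c k • α k i z) u v + c a * α a i z u v
    rw [sum_ap, sum_ap, Finset.sum_insert ha, add_comm]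
    rfl

theorem cl_b {n : ℕ} (M : Mark2 S n) (k : Fin n) : M.cl (M.b k) = Pi.single k 1 :=
  cl_unique M (M.closed k) (exact_congr exact_zero fun i z _ => l2_ext fun u v => by
    show (0 : ℂ) = M.b k i z u v - (∑ l, (Pi.single k (1 : ℂ) : Fin n → ℂ) l • M.b l i z) u v
    rw [sum_ap, Finset.sum_eq_single k]
    · rw [Pi.single_eq_same]
      show (0 : ℂ) = M.b k i z u v - 1 * M.b k i z u v
      ring
    · intro l _ hl
      rw [Pi.single_eq_of_ne hl]
      exact zero_mul (M.b l i z u v)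
    · intro h; exact absurd (Finset.mem_univ k) h)

theorem cl_lin {n : ℕ} (M : Mark2 S n) (x : Fin n → ℂ) :
    M.cl (fun i z => ∑ k, x k • M.b k i z) = x := by
  rw [cl_sum M Finset.univ x fun k _ => M.closed k]
  funext l
  simp [cl_b, Finset.sum_apply, Pi.single_apply]

theorem cl_conj {n : ℕ} (M : Mark2 S n) {α : Fin S.N → Cm d → L2 d} (hα : Cl2 S α) :
    M.cl (fun i z => cj2 d (α i z)) = fun k => conj (M.cl α k) := by
  refine cl_unique M (cl2_conj hα) (exact_congr (exact_conj (M.ex α hα)) fun i z hz => ?_)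
  refine l2_ext fun u v => ?_
  have hr : ∀ k, conj (M.b k i z u v) = M.b k i z u v := fun k =>
    Complex.conj_eq_iff_im.2 (M.real k i z hz u v)
  show conj (α i z u v - (∑ k, M.cl α k • M.b k i z) u v) =
    conj (α i z u v) - (∑ k, conj (M.cl α k) • M.b k i z) u v
  rw [sum_ap, sum_ap, map_sub, map_sum]
  congr 1
  refine Finset.sum_congr rfl fun k _ => ?_
  show conj (M.cl α k * M.b k i z u v) = conj (M.cl α k) * M.b k i z u v
  rw [map_mul, hr]

theorem cl_im {n : ℕ} (M : Mark2 S n) {α : Fin S.N → Cm d → L2 d} (hα : Cl2 S α)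
    (hr : Real2 S α) (k : Fin n) : (M.cl α k).im = 0 := by
  have h := cl_conj M hα
  rw [cl_congr M (cl2_conj hα) fun i z hz => cj2_of_real hr i hz] at h
  exact Complex.conj_eq_iff_im.1 (congrFun h k).symm

end

/-! ### `wd` and `wint` -/

theorem wd_comm (a b : L2 2) : wd a b = wd b a := by
  unfold wd; ring

theorem wd_add_smul (a a' b : L2 2) (c : ℂ) : wd (a + c • a') b = wd a b + c * wd a' b := by
  unfold wd
  simp only [ContinuousLinearMap.add_apply, ContinuousLinearMap.smul_apply, smul_eq_mul]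
  ring

theorem wd_zero (b : L2 2) : wd 0 b = 0 := by
  unfold wd; simp

theorem wd_cj (a b : L2 2) : wd (cj2 2 a) (cj2 2 b) = conj (wd a b) := by
  unfold wd
  simp only [cj2_apply, map_sub, map_add, map_mul]

theorem continuous_wd : Continuous fun p : L2 2 × L2 2 => wd p.1 p.2 := by
  unfold wd
  have h : ∀ u v : Cm 2, Continuous fun a : L2 2 => a u v := fun u v =>
    ((ContinuousLinearMap.apply ℝ ℂ v).continuous).comp
      ((ContinuousLinearMap.apply ℝ (Cm 2 →L[ℝ] ℂ) u).continuous)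
  have h1 : ∀ u v : Cm 2, Continuous fun p : L2 2 × L2 2 => p.1 u v := fun u v =>
    (h u v).comp continuous_fst
  have h2 : ∀ u v : Cm 2, Continuous fun p : L2 2 × L2 2 => p.2 u v := fun u v =>
    (h u v).comp continuous_snd
  exact (((((h1 _ _).mul (h2 _ _)).sub ((h1 _ _).mul (h2 _ _))).add ((h1 _ _).mul (h2 _ _))).add
    ((h1 _ _).mul (h2 _ _))).sub ((h1 _ _).mul (h2 _ _)) |>.add ((h1 _ _).mul (h2 _ _))

section
variable {E Γ : Type} [TopologicalSpace E] [Group Γ] [MulAction Γ E] {S : Sheets 2 E Γ}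

theorem contOn_wd {α β : Fin S.N → Cm 2 → L2 2} (hα : F2On S univ α) (hβ : F2On S univ β)
    (i : Fin S.N) : ContinuousOn (fun z => wd (α i z) (β i z)) (ball 0 3) := fun z hz =>
  (continuous_wd.continuousAt.comp (((hα.smooth i z hz (mem_univ _)).continuousAt).prodMk
    ((hβ.smooth i z hz (mem_univ _)).continuousAt))).continuousWithinAt

theorem wint_comm (α β : Fin S.N → Cm 2 → L2 2) : wint S α β = wint S β α := by
  unfold wint; simp only [wd_comm]

theorem P_sub3 (i : Fin S.N) {z : Cm 2} (hz : z ∈ S.P i) : z ∈ ball (0 : Cm 2) 3 := by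
  have : ‖z‖ < 1 := hz.1
  simp only [mem_ball, dist_zero_right]
  linarith

theorem int_congr [Subsingleton Γ] {D D' : Fin S.N → Cm 2 → ℂ}
    (h : ∀ i, ∀ z ∈ ball (0 : Cm 2) 3, D i z = D' i z) : S.int D = S.int D' := by
  unfold Sheets.int
  refine Finset.sum_congr rfl fun i _ => ?_
  exact setIntegral_congr_fun (H840.TS.meas_P S i) fun z hz => h i z (P_sub3 i hz)

theorem wint_congr [Subsingleton Γ] {α α' β β' : Fin S.N → Cm 2 → L2 2}
    (h : ∀ i, ∀ z ∈ ball (0 : Cm 2) 3, α i z = α' i z)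
    (h' : ∀ i, ∀ z ∈ ball (0 : Cm 2) 3, β i z = β' i z) : wint S α β = wint S α' β' :=
  int_congr fun i z hz => by rw [h i z hz, h' i z hz]

end

end Vale.Agent.P281.H747.TS
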