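import Vale.Agent.P281.H4.TS.C5
import Vale.Agent.P281.H747.TS.Mk

/-!
# P281, project T-S: pointwise algebra of the forms `sf2 s`, `kf2 w`, and positivity of integrals
-/

open Set Filter Metric MeasureTheory Vale.Agent.P272.K
open scoped Topology ContDiff ComplexConjugate ComplexOrder

noncomputable section

namespace Vale.Agent.P281.H747.TS

open Vale.Agent.P281.H64.TK Vale.Agent.P281.H64.TK.TS
open Vale.Agent.P281.H4.TS (sf2_apply kf2_apply rb0 rb1 rb2' rb3)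

theorem wd_sf_sf (s s' : ℂ) : wd (sf2 s) (sf2 s') = 0 := by
  simp only [wd, sf2_apply, rb0, rb1, rb2', rb3]
  simp
  linear_combination (2 * s * s') * Complex.I_mul_I

theorem wd_sf_cj (s s' : ℂ) : wd (sf2 s) (cj2 2 (sf2 s')) = 4 * s * conj s' := by
  simp only [wd, cj2_apply, sf2_apply, rb0, rb1, rb2', rb3]
  simp
  ring_nf
  simp
  ring

theorem wd_sf_kf (s : ℂ) (w : Matrix (Fin 2) (Fin 2) ℂ) : wd (sf2 s) (kf2 w) = 0 := by
  simp only [wd, kf2_apply, sf2_apply, rb0, rb1, rb2', rb3, Fin.sum_univ_two]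
  simp
  ring_nf

theorem wd_kf_kf (w : Matrix (Fin 2) (Fin 2) ℂ) : wd (kf2 w) (kf2 w) = 2 * w.det := by
  simp only [wd, kf2_apply, rb0, rb1, rb2', rb3, Fin.sum_univ_two, Matrix.det_fin_two]
  simp
  ring_nf
  simp
  ring

theorem sf2_add_smul (s s' c : ℂ) : sf2 (s + c * s') = sf2 s + c • sf2 s' :=
  l2_ext fun u v => by
    show (s + c * s') * (u 0 * v 1 - u 1 * v 0) = s * (u 0 * v 1 - u 1 * v 0) +
      c * (s' * (u 0 * v 1 - u 1 * v 0))
    ring

/-- The density of the square of `sf2 s + conj (sf2 s) + c kf2 w`. -/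
theorem wd_sq (s : ℂ) (c : ℂ) (w : Matrix (Fin 2) (Fin 2) ℂ) :
    wd (sf2 s + cj2 2 (sf2 s) + c • kf2 w) (sf2 s + cj2 2 (sf2 s) + c • kf2 w) =
      8 * s * conj s + c * (c * (2 * w.det)) + c * (2 * wd (cj2 2 (sf2 s)) (kf2 w)) := by
  have h1 : ∀ b : L2 2, wd (sf2 s + cj2 2 (sf2 s) + c • kf2 w) b =
      wd (sf2 s) b + wd (cj2 2 (sf2 s)) b + c * wd (kf2 w) b := by
    intro b
    unfold wd
    simp only [add_apply, smul_apply, smul_eq_mul]
    ring
  rw [h1, wd_comm (sf2 s), wd_comm (cj2 2 (sf2 s)), wd_comm (kf2 w), h1, h1, h1, wd_sf_sf,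
    wd_sf_cj, wd_comm (cj2 2 (sf2 s)) (sf2 s), wd_sf_cj, wd_cj, wd_sf_sf, wd_sf_kf,
    wd_comm (kf2 w) (sf2 s), wd_sf_kf, wd_comm (kf2 w) (cj2 2 (sf2 s)), wd_kf_kf, map_zero]
  ring

/-! ### Positivity -/

section
variable {d : ℕ} {E Γ : Type} [TopologicalSpace E] [Group Γ] [MulAction Γ E]

/-- The integral of a nonnegative density which is not zero is positive. -/
theorem int_pos [Subsingleton Γ] (S : Sheets d E Γ) (g : Fin S.N → Cm d → ℝ)
    (hc : ∀ i, ContinuousOn (g i) (ball 0 3)) (h0 : ∀ i, ∀ z ∈ ball (0 : Cm d) 3, 0 ≤ g i z)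
    (ht : ∀ i j, ∀ z ∈ ball (0 : Cm d) 3, ∀ z' ∈ ball (0 : Cm d) 3, S.σ i z = S.σ j z' →
      g i z ≠ 0 → g j z' ≠ 0)
    (hne : ∃ i, ∃ z ∈ ball (0 : Cm d) 3, g i z ≠ 0) :
    0 < (S.int fun i z => ((g i z : ℝ) : ℂ)).re := by
  classical
  have hb : ball (0 : Cm d) 1 ⊆ ball 0 3 := ball_subset_ball (by norm_num)
  have h1 : ∃ i, ∃ z ∈ ball (0 : Cm d) 1, g i z ≠ 0 := by
    obtain ⟨i, z, hz, hg⟩ := hne
    obtain ⟨γ, j, w, hw, h⟩ := S.cover (S.σ i z)
    have hγ : γ = 1 := Subsingleton.elim _ _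
    rw [hγ, one_smul] at h
    have hw1 : w ∈ ball (0 : Cm d) 1 := by simpa using hw
    exact ⟨j, w, hw1, ht i j z hz w (hb hw1) h.symm hg⟩
  -- the minimal index
  obtain ⟨i, ⟨z₀, hz₀, hg₀⟩, hmin⟩ : ∃ i : Fin S.N, (∃ z ∈ ball (0 : Cm d) 1, g i z ≠ 0) ∧
      ∀ j, j < i → ¬ ∃ z ∈ ball (0 : Cm d) 1, g j z ≠ 0 := by
    have hw := WellFounded.has_min (r := ((· < ·) : Fin S.N → Fin S.N → Prop)) wellFounded_lt
      {i | ∃ z ∈ ball (0 : Cm d) 1, g i z ≠ 0} h1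
    obtain ⟨i, hi, h2⟩ := hw
    exact ⟨i, hi, fun j hj hjj => h2 j hjj hj⟩
  have hsub : {z ∈ ball (0 : Cm d) 1 | g i z ≠ 0} ⊆ S.P i := by
    rintro z ⟨hz, hg⟩
    refine ⟨by simpa using hz, fun j hj γ w hw h => hmin j hj ⟨w, by simpa using hw, ?_⟩⟩
    have hγ : γ = 1 := Subsingleton.elim _ _
    rw [hγ, one_smul] at h
    exact ht i j z (hb hz) w (hb (by simpa using hw)) h.symm hg
  have hre : (S.int fun i z => ((g i z : ℝ) : ℂ)).re = ∑ i, ∫ z in S.P i, g i z := by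
    unfold Sheets.int
    rw [Complex.re_sum]
    refine Finset.sum_congr rfl fun i _ => ?_
    rw [integral_complex_ofReal, Complex.ofReal_re]
  have hP3 : ∀ j, S.P j ⊆ ball 0 3 := fun j => (H840.TS.P_sub S j).trans hb
  have hnn : ∀ j, 0 ≤ ∫ z in S.P j, g j z := fun j =>
    setIntegral_nonneg (H840.TS.meas_P S j) fun z hz => h0 j z (hP3 j hz)
  rw [hre]
  refine lt_of_lt_of_le ?_ (Finset.single_le_sum (f := fun j => ∫ z in S.P j, g j z)
    (fun j _ => hnn j) (Finset.mem_univ i))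
  have hint : IntegrableOn (g i) (S.P i) := by
    have h2 : IntegrableOn (g i) (closedBall (0 : Cm d) 1) :=
      ((hc i).mono (closedBall_subset_ball (by norm_num))).integrableOn_compact
        (isCompact_closedBall 0 1)
    exact h2.mono_set ((H840.TS.P_sub S i).trans ball_subset_closedBall)
  rw [setIntegral_pos_iff_support_of_nonneg_ae]
  · have hopen : IsOpen {z ∈ ball (0 : Cm d) 1 | g i z ≠ 0} := by
      have : {z ∈ ball (0 : Cm d) 1 | g i z ≠ 0} = ball (0 : Cm d) 1 ∩ (g i) ⁻¹' {0}ᶜ := by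
        ext z; simp
      rw [this]
      exact ((hc i).mono hb).isOpen_inter_preimage isOpen_ball isOpen_compl_singleton
    have hpos : 0 < volume {z ∈ ball (0 : Cm d) 1 | g i z ≠ 0} :=
      hopen.measure_pos volume ⟨z₀, hz₀, hg₀⟩
    refine lt_of_lt_of_le hpos (measure_mono fun z hz => ⟨hz.2, hsub hz⟩)
  · exact (ae_restrict_iff' (H840.TS.meas_P S i)).2 (Filter.Eventually.of_forall
      fun z hz => h0 i z (hP3 i hz))
  · exact hint

end

end Vale.Agent.P281.H747.TS
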