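import Vale.Agent.P281.H64.TS.Spec2
import Vale.Agent.P281.H747.TS.Mk

/-!
# P281, project T-S, block D4 (`PullMarkStmt`): the pull-back of a marking
-/

open Set Filter Metric MeasureTheory Vale.Agent.P272.K
open scoped Topology ContDiff ComplexConjugate ComplexOrder

noncomputable section

namespace Vale.Agent.P281.H747.TS

open Vale.Agent.P281.H64.TK Vale.Agent.P281.H64.TK.TS

section
variable {d : ℕ} {E Γ : Type} [TopologicalSpace E] [Group Γ] [MulAction Γ E]
variable {E' Γ' : Type} [TopologicalSpace E'] [Group Γ'] [MulAction Γ' E']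
variable {S : Sheets d E Γ} {S' : Sheets d E' Γ'}

/-- Every point of `E'` is in the domain of a transition map. -/
theorem exists_tr [Subsingleton Γ] {τ : E ≃ₜ E'} (hd : Dif S S' τ) (hd' : Dif S' S τ.symm)
    (j : Fin S'.N) {z' : Cm d} (hz' : z' ∈ ball (0 : Cm d) 3) :
    ∃ i, ∃ z ∈ ball (0 : Cm d) 3, ∃ ψ, Tr S' S τ.symm j i z' z ψ := by
  obtain ⟨γ, i, z, hz, h⟩ := S.cover (τ.symm (S'.σ j z'))
  have hγ : γ = 1 := Subsingleton.elim _ _
  rw [hγ, one_smul] at h
  have hz3 : z ∈ ball (0 : Cm d) 3 := by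
    simp only [mem_ball, dist_zero_right]; linarith
  obtain ⟨ψ, hψ, -⟩ := hd' j i z' hz' z hz3 h.symm
  exact ⟨i, z, hz3, ψ, hψ⟩

/-- The form on `E'` is determined by its pull-back. -/
theorem pull_unique [Subsingleton Γ] {τ : E ≃ₜ E'} (hd : Dif S S' τ) (hd' : Dif S' S τ.symm)
    {α : Fin S.N → Cm d → L2 d} {α' α'' : Fin S'.N → Cm d → L2 d}
    (h : Pull2 S' S τ.symm α' α) (h' : Pull2 S' S τ.symm α'' α) (j : Fin S'.N) {z' : Cm d}
    (hz' : z' ∈ ball (0 : Cm d) 3) : α' j z' = α'' j z' := by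
  obtain ⟨i, z, hz, ψ, hψ⟩ := exists_tr hd hd' j hz'
  exact l2_ext fun u v => by
    rw [h j i z' hz' z hz ψ hψ u v, h' j i z' hz' z hz ψ hψ u v]

end

/-- **D4**. -/
theorem pullMark (hP : PullStmt) (hI : IntInvStmt) (hW : WdStmt) : PullMarkStmt := by
  intro E Γ _ _ _ _ _ _ S E' Γ' _ _ _ _ _ _ S' τ n M' hd
  obtain ⟨hd', hex, hinv, hpr⟩ := hP 2 E Γ S E' Γ' S' τ (by norm_num) hd
  obtain ⟨-, hex', hinv', hpr'⟩ := hP 2 E' Γ' S' E Γ S τ.symm (by norm_num) hd'
  have hss : τ.symm.symm = τ := rfl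
  choose b hb hbp using fun k => hex (M'.b k) (M'.closed k)
  choose! r hr hrp using hex'
  have hrp' : ∀ α, Cl2 S α → Pull2 S S' τ α (r α) := fun α hα =>
    hinv' (r α) α (hr α hα) hα (hrp α hα)
  have hbp' : ∀ k, Pull2 S' S τ.symm (M'.b k) (b k) := fun k =>
    hinv (b k) (M'.b k) (hb k) (M'.closed k) (hbp k)
  let M : Mark2 S n :=
    { b := b
      cl := fun α => M'.cl (r α)
      closed := hb
      real := fun k => ((hpr (b k) (M'.b k) (hbp k)).2.1) (M'.real k)
      int := fun k => ((hpr (b k) (M'.b k) (hbp k)).1) (M'.int k)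
      ex := fun α hα => by
        have h1 : Pull2 S S' τ (fun i z => α i z - ∑ k, M'.cl (r α) k • b k i z)
            (fun i z => r α i z - ∑ k, M'.cl (r α) k • M'.b k i z) :=
          pull2_sub (hrp' α hα) (pull2_sum Finset.univ (M'.cl (r α)) fun k _ => hbp k)
        exact (hpr _ _ h1).2.2 (M'.ex (r α) (hr α hα))
      indep := fun c hc => by
        have h1 : Pull2 S' S τ.symm (fun i z => ∑ k, c k • M'.b k i z)
            (fun i z => ∑ k, c k • b k i z) := pull2_sum Finset.univ c fun k _ => hbp' k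
        exact M'.indep c ((hpr' _ _ h1).2.2 hc)
      intcl := fun α hα hi k =>
        M'.intcl (r α) (hr α hα) ((hpr' _ _ (hrp α hα)).1 hi) k }
  refine ⟨M, ?_, ?_⟩
  · unfold Bm
    congr 1
    funext k l
    have h := hI 2 E Γ S E' Γ' S' τ (fun i z => wd (b k i z) (b l i z))
      (fun i z => wd (M'.b k i z) (M'.b l i z)) (by norm_num) hd
      (fun i => contOn_wd (hb k).toF2On (hb l).toF2On i)
      (fun i => contOn_wd (M'.closed k).toF2On (M'.closed l).toF2On i)
      (fun i j z hz z' hz' ψ hψ => hW (fderiv ℝ ψ z) _ _ _ _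
        ((M'.closed k).alt j z' hz' (mem_univ _)) ((M'.closed l).alt j z' hz' (mem_univ _))
        (hbp k i j z hz z' hz' ψ hψ) (hbp l i j z hz z' hz' ψ hψ))
    exact congrArg Complex.re h
  · intro α α' hα hα' hp
    show M'.cl (r α) = M'.cl α'
    exact cl_congr M' (hr α hα) fun j z' hz' =>
      pull_unique hd hd' (hrp α hα) (hinv α α' hα hα' hp) j hz'

end Vale.Agent.P281.H747.TS
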