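import Vale.Agent.P281.H747.TS.One

/-!
# P281, project T-S: `H^{2,0} ⊕ ℝ w` in the lattice of a marking
-/

open Set Filter Metric MeasureTheory Vale.Agent.P272.K
open scoped Topology ContDiff ComplexConjugate ComplexOrder

noncomputable section

namespace Vale.Agent.P281.H747.TS

open Vale.Agent.P281.H64.TK Vale.Agent.P281.H64.TK.TS
open Vale.Agent.P281.H713 (bil)

section
variable {E Γ : Type} [TopologicalSpace E] [Group Γ] [MulAction Γ E] {S : Sheets 2 E Γ} {n : ℕ}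

/-- The classes of the holomorphic 2-forms. -/
def Ls (M : Mark2 S n) : Submodule ℂ (Fin n → ℂ) where
  carrier := {x | ∃ s, HolD S s ∧ M.cl (fun i z => sf2 (s i z)) = x}
  add_mem' := by
    rintro _ _ ⟨s, hs, rfl⟩ ⟨s', hs', rfl⟩
    refine ⟨fun i z => s i z + 1 * s' i z, holD_add_smul hs hs' 1, ?_⟩
    rw [cl_sf_add_smul M hs hs', one_smul]
  zero_mem' := ⟨fun _ _ => 0, holD_zero, cl_sf_zero M fun _ _ _ => rfl⟩
  smul_mem' := by
    rintro c _ ⟨s, hs, rfl⟩
    refine ⟨fun i z => 0 + c * s i z, holD_add_smul holD_zero hs c, ?_⟩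
    rw [cl_sf_add_smul M holD_zero hs, cl_sf_zero M (s := fun _ _ => 0) fun _ _ _ => rfl, zero_add]

/-- `(x, c) ↦ 2 Re x + c v`. -/
def PhiP (L : Submodule ℂ (Fin n → ℂ)) (v : Fin n → ℝ) : (L × ℝ) →ₗ[ℝ] (Fin n → ℝ) where
  toFun p k := 2 * ((p.1 : Fin n → ℂ) k).re + p.2 * v k
  map_add' p q := by
    funext k
    simp only [Prod.fst_add, Prod.snd_add, Submodule.coe_add, Pi.add_apply, Complex.add_re]
    ring
  map_smul' r p := by
    funext k
    have h : (((r • p.1 : L) : Fin n → ℂ) k).re = r * ((p.1 : Fin n → ℂ) k).re := by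
      rw [Submodule.coe_smul_of_tower, Pi.smul_apply, Complex.smul_re, smul_eq_mul]
    simp only [Prod.smul_fst, Prod.smul_snd, Pi.smul_apply, smul_eq_mul, RingHom.id_apply, h]
    ring

theorem PhiP_apply (L : Submodule ℂ (Fin n → ℂ)) (v : Fin n → ℝ) (p : L × ℝ) (k : Fin n) :
    PhiP L v p k = 2 * ((p.1 : Fin n → ℂ) k).re + p.2 * v k := rfl

/-- A bilinear form, in two notations. -/
theorem bil_re (B : Matrix (Fin n) (Fin n) ℝ) (x y : Fin n → ℝ) :
    bil B (fun k => (x k : ℂ)) (fun k => (y k : ℂ)) = ((x ⬝ᵥ B.mulVec y : ℝ) : ℂ) := by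
  unfold bil
  simp only [dotProduct, Matrix.mulVec, Finset.mul_sum]
  push_cast
  refine Finset.sum_congr rfl fun k _ => Finset.sum_congr rfl fun l _ => ?_
  ring

theorem bil_right (B : Matrix (Fin n) (Fin n) ℝ) (x : Fin n → ℝ) (p : Fin n → ℂ) :
    bil B (fun k => (x k : ℂ)) p = ((x ⬝ᵥ B.mulVec (fun k => (p k).re) : ℝ) : ℂ) +
      ((x ⬝ᵥ B.mulVec (fun k => (p k).im) : ℝ) : ℂ) * Complex.I := by
  unfold bil
  simp only [dotProduct, Matrix.mulVec, Finset.mul_sum]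
  push_cast
  rw [Finset.sum_mul, ← Finset.sum_add_distrib]
  refine Finset.sum_congr rfl fun k _ => ?_
  rw [Finset.sum_mul, ← Finset.sum_add_distrib]
  refine Finset.sum_congr rfl fun l _ => ?_
  conv_lhs => rw [← Complex.re_add_im (p l)]
  ring

theorem dot_symm {B : Matrix (Fin n) (Fin n) ℝ} (hB : B.IsSymm) (x y : Fin n → ℝ) :
    x ⬝ᵥ B.mulVec y = y ⬝ᵥ B.mulVec x := by
  rw [Matrix.dotProduct_mulVec, ← Matrix.mulVec_transpose, hB.eq, dotProduct_comm]

variable {w : Fin S.N → Cm 2 → Matrix (Fin 2) (Fin 2) ℂ} (M : Mark2 S n)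

/-- The coordinates of the class of the Kähler form. -/
def vK (M : Mark2 S n) (w : Fin S.N → Cm 2 → Matrix (Fin 2) (Fin 2) ℂ) (k : Fin n) : ℝ :=
  (M.cl (fun i z => kf2 (w i z)) k).re

/-- The intersection form. -/
def BM (M : Mark2 S n) : Matrix (Fin n) (Fin n) ℝ :=
  Matrix.of fun k l => (wint S (M.b k) (M.b l)).re

theorem BM_symm : (BM M).IsSymm := by
  ext k l
  show (wint S (M.b l) (M.b k)).re = (wint S (M.b k) (M.b l)).re
  rw [wint_comm]

variable [T2Space E] [Subsingleton Γ] [ContinuousConstSMul Γ E]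

theorem wint_BM (hSt : StokesStmt) {α β : Fin S.N → Cm 2 → L2 2} (hα : Cl2 S α) (hβ : Cl2 S β) :
    wint S α β = bil (BM M) (M.cl α) (M.cl β) :=
  wint_cl hSt M (fun _ _ => rfl) hα hβ

/-- The square of the class of `sk s w c`. -/
theorem sk_form (hSt : StokesStmt) {s : Fin S.N → Cm 2 → ℂ} (hs : HolD S s) (hw : Kah S w)
    (c : ℝ) (x : Ls M) (hx : (x : Fin n → ℂ) = M.cl (fun i z => sf2 (s i z))) :
    PhiP (Ls M) (vK M w) (x, c) ⬝ᵥ (BM M).mulVec (PhiP (Ls M) (vK M w) (x, c)) =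
      (wint S (sk s w c) (sk s w c)).re := by
  rw [wint_BM M hSt (cl2_sk hs hw c) (cl2_sk hs hw c)]
  have h1 : M.cl (sk s w c) = fun k => ((PhiP (Ls M) (vK M w) (x, c) k : ℝ) : ℂ) := by
    funext k
    rw [cl_sk M hs hw c k, PhiP_apply, hx]
    rfl
  rw [h1, bil_re, Complex.ofReal_re]

theorem phi_pos (hSt : StokesStmt) (hw : Kah S w) (hE : Nonempty E) (p : Ls M × ℝ) (hp : p ≠ 0) :
    0 < PhiP (Ls M) (vK M w) p ⬝ᵥ (BM M).mulVec (PhiP (Ls M) (vK M w) p) := by
  obtain ⟨⟨x, s, hs, hx⟩, c⟩ := p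
  rw [sk_form M hSt hs hw c ⟨x, s, hs, hx⟩ hx.symm]
  refine wint_sk_pos hs hw c hE ?_
  by_contra hcon
  push Not at hcon
  apply hp
  have h1 : x = 0 := by
    rw [← hx]; exact cl_sf_zero M hcon.1
  refine Prod.ext (Subtype.ext h1) hcon.2

theorem phi_inj (hSt : StokesStmt) (hw : Kah S w) (hE : Nonempty E) :
    Function.Injective (PhiP (Ls M) (vK M w)) := by
  rw [← LinearMap.ker_eq_bot, LinearMap.ker_eq_bot']
  intro p hp
  by_contra h
  have := phi_pos M hSt hw hE p h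
  rw [hp] at this
  simp at this

theorem finrank_range (hSt : StokesStmt) (hw : Kah S w) (hE : Nonempty E) :
    Module.finrank ℝ (LinearMap.range (PhiP (Ls M) (vK M w))) =
      2 * Module.finrank ℂ (Ls M) + 1 := by
  rw [LinearMap.finrank_range_of_inj (phi_inj M hSt hw hE), Module.finrank_prod,
    Module.finrank_self, ← Module.finrank_mul_finrank ℝ ℂ (Ls M), Complex.finrank_real_complex]

/-- A class orthogonal to the image of `PhiP` has a negative square. -/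
theorem phi_neg [PreconnectedSpace E] (hSt : StokesStmt) (hHI : HodgeIndexStmt) (hw : Kah S w)
    (x : Fin n → ℝ) (hx : x ≠ 0)
    (h : ∀ y ∈ LinearMap.range (PhiP (Ls M) (vK M w)), y ⬝ᵥ (BM M).mulVec x = 0) :
    x ⬝ᵥ (BM M).mulVec x < 0 := by
  have hsy := BM_symm M
  have hcl := cl2_sum Finset.univ (fun k => (x k : ℂ)) fun k _ => M.closed k
  have hre : Real2 S (fun i z => ∑ k, (x k : ℂ) • M.b k i z) := by
    intro i z hz u v
    rw [sum_ap, Complex.im_sum]
    refine Finset.sum_eq_zero fun k _ => ?_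
    show ((x k : ℂ) * M.b k i z u v).im = 0
    rw [Complex.im_ofReal_mul, M.real k i z hz u v, mul_zero]
  have hcx : M.cl (fun i z => ∑ k, (x k : ℂ) • M.b k i z) = fun k => (x k : ℂ) := cl_lin M _
  have h1 : wint S (fun i z => ∑ k, (x k : ℂ) • M.b k i z) (fun i z => kf2 (w i z)) = 0 := by
    rw [wint_BM M hSt hcl (H702.TS.kah_cl2 hw), hcx, bil_right]
    have h2 : (fun k => (M.cl (fun i z => kf2 (w i z)) k).im) = 0 := by
      funext k; exact cl_im M (H702.TS.kah_cl2 hw) (H702.TS.kah_real2 hw) k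
    have h3 := h (PhiP (Ls M) (vK M w) (0, 1)) ⟨_, rfl⟩
    have h4 : PhiP (Ls M) (vK M w) (0, 1) = fun k => (M.cl (fun i z => kf2 (w i z)) k).re := by
      funext k
      rw [PhiP_apply]
      simp [vK]
    rw [h4, dot_symm hsy] at h3
    rw [h2, h3]
    simp
  have h2 : ∀ s, HolD S s →
      wint S (fun i z => ∑ k, (x k : ℂ) • M.b k i z) (fun i z => sf2 (s i z)) = 0 := by
    intro s hs
    rw [wint_BM M hSt hcl (H702.TS.hol_cl2 hs), hcx, bil_right]
    set p := M.cl (fun i z => sf2 (s i z)) with hp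
    have hpL : p ∈ Ls M := ⟨s, hs, rfl⟩
    have h3 := h (PhiP (Ls M) (vK M w) (⟨p, hpL⟩, 0)) ⟨_, rfl⟩
    have h4 := h (PhiP (Ls M) (vK M w) (⟨Complex.I • p, (Ls M).smul_mem _ hpL⟩, 0)) ⟨_, rfl⟩
    have h5 : PhiP (Ls M) (vK M w) (⟨p, hpL⟩, 0) = (2 : ℝ) • fun k => (p k).re := by
      funext k
      rw [PhiP_apply]
      simp
    have h6 : PhiP (Ls M) (vK M w) (⟨Complex.I • p, (Ls M).smul_mem _ hpL⟩, 0) =
        (-2 : ℝ) • fun k => (p k).im := by
      funext k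
      rw [PhiP_apply]
      simp
    rw [h5, smul_dotProduct, dot_symm hsy] at h3
    rw [h6, smul_dotProduct, dot_symm hsy] at h4
    have h7 : x ⬝ᵥ (BM M).mulVec (fun k => (p k).re) = 0 := by
      rw [smul_eq_mul] at h3; linarith
    have h8 : x ⬝ᵥ (BM M).mulVec (fun k => (p k).im) = 0 := by
      rw [smul_eq_mul] at h4; linarith
    rw [h7, h8]
    simp
  obtain ⟨h3, h4⟩ := hHI E Γ S w _ hw hcl hre h1 h2
  have h5 := wint_BM M hSt hcl hcl
  rw [hcx, bil_re] at h5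
  have h6 : (wint S (fun i z => ∑ k, (x k : ℂ) • M.b k i z)
      (fun i z => ∑ k, (x k : ℂ) • M.b k i z)).re = x ⬝ᵥ (BM M).mulVec x := by
    rw [h5, Complex.ofReal_re]
  rw [h6] at h3 h4
  refine lt_of_le_of_ne h3 fun h7 => hx ?_
  have h8 := M.indep (fun k => (x k : ℂ)) (h4 h7)
  funext k
  have := congrFun h8 k
  simpa using this

/-- The class of a nonzero holomorphic 2-form is not zero. -/
theorem sf_inj (hSt : StokesStmt) (hw : Kah S w) {s : Fin S.N → Cm 2 → ℂ} (hs : HolD S s)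
    (h : M.cl (fun i z => sf2 (s i z)) = 0) : ∀ i, ∀ z ∈ ball (0 : Cm 2) 3, s i z = 0 := by
  by_contra hcon
  push Not at hcon
  obtain ⟨i, z, hz, hne⟩ := hcon
  have hE : Nonempty E := ⟨S.σ i z⟩
  have h1 := wint_sk_pos hs hw 0 hE (Or.inl ⟨i, z, hz, hne⟩)
  rw [← sk_form M hSt hs hw 0 ⟨_, s, hs, rfl⟩ rfl] at h1
  have h2 : PhiP (Ls M) (vK M w) (⟨M.cl (fun i z => sf2 (s i z)), s, hs, rfl⟩, 0) = 0 := by
    funext k
    rw [PhiP_apply]
    simp [h]
  rw [h2] at h1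
  simp at h1

theorem h20One_iff (hSt : StokesStmt) (hw : Kah S w) :
    H20One S ↔ Module.finrank ℂ (Ls M) = 1 := by
  rw [finrank_eq_one_iff']
  constructor
  · rintro ⟨s, hs, ⟨i, z, hz, hne⟩, hu⟩
    refine ⟨⟨M.cl (fun i z => sf2 (s i z)), s, hs, rfl⟩, ?_, ?_⟩
    · intro h0
      exact hne (sf_inj M hSt hw hs (congrArg Subtype.val h0) i z hz)
    · rintro ⟨_, s', hs', rfl⟩
      obtain ⟨c, hc⟩ := hu s' hs'
      refine ⟨c, Subtype.ext ?_⟩
      show c • M.cl (fun i z => sf2 (s i z)) = M.cl (fun i z => sf2 (s' i z))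
      have h1 := cl_sf_add_smul M (holD_zero (S := S)) hs c
      rw [cl_sf_zero M (s := fun _ _ => 0) fun _ _ _ => rfl, zero_add] at h1
      rw [← h1]
      exact cl_congr M (H702.TS.hol_cl2 (holD_add_smul holD_zero hs c)) fun i z hz => by
        rw [hc i z hz, zero_add]
  · rintro ⟨⟨_, s, hs, rfl⟩, hne, hu⟩
    refine ⟨s, hs, ?_, fun s' hs' => ?_⟩
    · by_contra hcon
      push Not at hcon
      exact hne (Subtype.ext (cl_sf_zero M hcon))
    · obtain ⟨c, hc⟩ := hu ⟨_, s', hs', rfl⟩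
      refine ⟨c, fun i z hz => ?_⟩
      have h1 : c • M.cl (fun i z => sf2 (s i z)) = M.cl (fun i z => sf2 (s' i z)) :=
        congrArg Subtype.val hc
      have h2 := cl_sf_add_smul M hs' hs (-c)
      rw [← h1, neg_smul, add_neg_cancel] at h2
      have h3 := sf_inj M hSt hw (holD_add_smul hs' hs (-c)) h2 i z hz
      linear_combination h3

end

end Vale.Agent.P281.H747.TS
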