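import Vale.Agent.P281.H747.TS.H20
import Vale.Agent.P281.H864.TS.Pull
import Vale.Agent.P281.H4.TS.C2b
import Vale.Agent.P281.H125.TS.C1

/-!
# P281, project T-S: D4, and D1 from A8, C7, D1a
-/

noncomputable section

namespace Vale.Agent.P281.H747.TS

open Vale.Agent.P281.H64.TK Vale.Agent.P281.H64.TK.TS

/-- **D4**, without inputs. -/
theorem pullMarkStmt : PullMarkStmt :=
  pullMark H864.TS.pull H840.TS.intInv H4.TS.wd_det

/-- **D1** from A8, C7, D1a. -/
theorem h20ConstStmt (mark : MarkStmt) (hodge : HodgeIndexStmt) (sig : SigStmt) : H20ConstStmt :=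
  h20Const mark H864.TS.pull H840.TS.intInv H4.TS.wd_det H125.TS.c1 hodge sig

end Vale.Agent.P281.H747.TS
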