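import Vale.Agent.P281.H64.TS.Spec2
import Vale.Agent.P281.H603.K.Fib
import Vale.Agent.P281.H747.TS.Lat
import Vale.Agent.P281.H747.TS.PullMark

/-!
# P281, project T-S, block D1 (`H20ConstStmt`): `h^{2,0}` is constant in a family of compact Kähler
surfaces

The space `P` spanned by `Re H^{2,0}`, `Im H^{2,0}` and the Kähler class is a maximal positive
subspace for the intersection form, which does not depend on the member of the family.
-/

open Set Filter Metric MeasureTheory Vale.Agent.P272.K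
open scoped Topology ContDiff ComplexConjugate ComplexOrder

noncomputable section

namespace Vale.Agent.P281.H747.TS

open Vale.Agent.P281.H64.TK Vale.Agent.P281.H64.TK.TS

/-- **D1**. -/
theorem h20Const (hMk : MarkStmt) (hP : PullStmt) (hI : IntInvStmt) (hW : WdStmt)
    (hSt : StokesStmt) (hHI : HodgeIndexStmt) (hSig : SigStmt) : H20ConstStmt := by
  intro p E Γ _ _ _ _ _ _ _ 𝓕 W hKF t ht t' ht' h1
  have hE : Nonempty E := by
    obtain ⟨s, -, ⟨i, z, -, -⟩, -⟩ := h1
    exact ⟨(𝓕.at t ht).σ i z⟩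
  have hw : Kah (𝓕.at t ht) (fibW W t) := H603.K.kah_fib hKF ht
  have hw' : Kah (𝓕.at t' ht') (fibW W t') := H603.K.kah_fib hKF ht'
  obtain ⟨n, ⟨M'⟩⟩ := hMk 2 E Γ (𝓕.at t' ht') (by norm_num)
  have hd : Dif (𝓕.at t ht) (𝓕.at t' ht') (Homeomorph.refl E) := by
    intro i j z hz z' hz' he
    obtain ⟨ψ, k1, k2, k3, k4⟩ := 𝓕.compat t t' ht ht' i j z hz z' hz' 1 (by
      rw [one_smul]; exact he)
    exact ⟨ψ, ⟨k1, k2, k4.mono fun u hu => by rw [hu, one_smul]; rfl⟩, k3⟩
  obtain ⟨M, hMB, -⟩ := pullMark hP hI hW E Γ (𝓕.at t ht) E Γ (𝓕.at t' ht') (Homeomorph.refl E) n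
    M' hd
  have hB : BM M = BM M' := hMB
  have hfin := hSig n (BM M) (BM_symm M)
    (LinearMap.range (PhiP (Ls M) (vK M (fibW W t))))
    (LinearMap.range (PhiP (Ls M') (vK M' (fibW W t'))))
    (by
      rintro _ ⟨q, rfl⟩ hq
      refine phi_pos M hSt hw hE q ?_
      rintro rfl
      exact hq (map_zero _))
    (by
      rintro _ ⟨q, rfl⟩ hq
      rw [hB]
      refine phi_pos M' hSt hw' hE q ?_
      rintro rfl
      exact hq (map_zero _))
    (fun x hx h => phi_neg M hSt hHI hw x hx h)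
    (fun x hx h => by
      rw [hB] at h ⊢
      exact phi_neg M' hSt hHI hw' x hx h)
  rw [finrank_range M hSt hw hE, finrank_range M' hSt hw' hE] at hfin
  rw [h20One_iff M hSt hw] at h1
  rw [h20One_iff M' hSt hw']
  omega

end Vale.Agent.P281.H747.TS
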