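import Vale.Agent.P281.H747.TS.Alg
import Vale.Agent.P281.H702.TS.HF
import Vale.Agent.P281.H713.DefsK

/-!
# P281, project T-S: the intersection form of a compact Kähler surface
-/

open Set Filter Metric MeasureTheory Vale.Agent.P272.K
open scoped Topology ContDiff ComplexConjugate ComplexOrder

noncomputable section

namespace Vale.Agent.P281.H747.TS

open Vale.Agent.P281.H64.TK Vale.Agent.P281.H64.TK.TS
open Vale.Agent.P281.H713 (bil)

section
variable {E Γ : Type} [TopologicalSpace E] [Group Γ] [MulAction Γ E] {S : Sheets 2 E Γ}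

/-! ### `wint` -/

theorem wint_add_smul [Subsingleton Γ] {α α' β : Fin S.N → Cm 2 → L2 2} (hα : F2On S univ α)
    (hα' : F2On S univ α') (hβ : F2On S univ β) (c : ℂ) :
    wint S (fun i z => α i z + c • α' i z) β = wint S α β + c * wint S α' β := by
  unfold wint Sheets.int
  rw [Finset.mul_sum, ← Finset.sum_add_distrib]
  refine Finset.sum_congr rfl fun i _ => ?_
  have h1 : IntegrableOn (fun z => wd (α i z) (β i z)) (S.P i) :=
    H840.TS.integ S i (contOn_wd hα hβ i) (H840.TS.P_sub S i)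
  have h2 : IntegrableOn (fun z => wd (α' i z) (β i z)) (S.P i) :=
    H840.TS.integ S i (contOn_wd hα' hβ i) (H840.TS.P_sub S i)
  rw [← integral_const_mul, ← integral_add h1 (h2.const_mul c)]
  refine integral_congr_ae (Filter.Eventually.of_forall fun z => ?_)
  exact wd_add_smul _ _ _ _

theorem wint_zero (β : Fin S.N → Cm 2 → L2 2) : wint S (fun _ _ => 0) β = 0 := by
  unfold wint Sheets.int
  simp [wd_zero]

theorem wint_sum [Subsingleton Γ] {ι : Type} (s : Finset ι) {α : ι → Fin S.N → Cm 2 → L2 2}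
    {β : Fin S.N → Cm 2 → L2 2} (c : ι → ℂ) (h : ∀ k ∈ s, Cl2 S (α k)) (hβ : Cl2 S β) :
    wint S (fun i z => ∑ k ∈ s, c k • α k i z) β = ∑ k ∈ s, c k * wint S (α k) β := by
  classical
  induction s using Finset.induction_on with
  | empty =>
    rw [Finset.sum_empty, ← wint_zero β]
    exact wint_congr (fun i z _ => l2_ext fun u v => by rw [sum_ap]; rfl) fun i z _ => rfl
  | insert a s ha ih =>
    have h1 := ih fun k hk => h k (Finset.mem_insert_of_mem hk)
    have h2 := wint_add_smul (cl2_sum s c fun k hk => h k (Finset.mem_insert_of_mem hk)).toF2On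
      (h a (Finset.mem_insert_self a s)).toF2On hβ.toF2On (c a)
    rw [Finset.sum_insert ha, ← h1, add_comm (c a * wint S (α a) β), ← h2]
    refine wint_congr (fun i z _ => l2_ext fun u v => ?_) fun i z _ => rfl
    show (∑ k ∈ insert a s, c k • α k i z) u v = (∑ k ∈ s, c k • α k i z) u v + c a * α a i z u v
    rw [sum_ap, sum_ap, Finset.sum_insert ha, add_comm]
    rfl

theorem wint_exact [T2Space E] [Subsingleton Γ] [ContinuousConstSMul Γ E] (hSt : StokesStmt)
    {α β : Fin S.N → Cm 2 → L2 2} (hα : Exact S α) (hβ : Cl2 S β) : wint S α β = 0 := by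
  obtain ⟨b, hb, h1⟩ := hα
  rw [← hSt E Γ S β b hβ hb]
  exact wint_congr (fun i z hz => l2_ext fun u v => (h1 i z hz (mem_univ _) u v).symm)
    fun i z _ => rfl

theorem wint_conj (α β : Fin S.N → Cm 2 → L2 2) :
    wint S (fun i z => cj2 2 (α i z)) (fun i z => cj2 2 (β i z)) = conj (wint S α β) := by
  unfold wint Sheets.int
  rw [map_sum]
  refine Finset.sum_congr rfl fun i _ => ?_
  rw [← integral_conj]
  exact integral_congr_ae (Filter.Eventually.of_forall fun z => wd_cj _ _)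

theorem wint_real [Subsingleton Γ] {α β : Fin S.N → Cm 2 → L2 2} (hα : Real2 S α)
    (hβ : Real2 S β) : (wint S α β).im = 0 := by
  refine Complex.conj_eq_iff_im.1 ?_
  rw [← wint_conj]
  exact wint_congr (fun i z hz => cj2_of_real hα i hz) fun i z hz => cj2_of_real hβ i hz

/-- The intersection form in the coordinates of a marking. -/
theorem wint_cl [T2Space E] [Subsingleton Γ] [ContinuousConstSMul Γ E] (hSt : StokesStmt) {n : ℕ}
    (M : Mark2 S n) {B : Matrix (Fin n) (Fin n) ℝ}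
    (hB : ∀ k l, B k l = (wint S (M.b k) (M.b l)).re)
    {α β : Fin S.N → Cm 2 → L2 2} (hα : Cl2 S α) (hβ : Cl2 S β) :
    wint S α β = bil B (M.cl α) (M.cl β) := by
  have hB' : ∀ k l, (B k l : ℂ) = wint S (M.b k) (M.b l) := fun k l => by
    rw [hB]
    exact Complex.ext rfl (by rw [Complex.ofReal_im, wint_real (M.real k) (M.real l)])
  have key : ∀ {α β : Fin S.N → Cm 2 → L2 2}, Cl2 S α → Cl2 S β →
      wint S α β = ∑ k, M.cl α k * wint S (M.b k) β := by
    intro α β hα hβ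
    have h1 := cl2_sum Finset.univ (M.cl α) fun k _ => M.closed k
    have h2 := wint_add_smul hα.toF2On h1.toF2On hβ.toF2On (-1)
    have h3 : wint S (fun i z => α i z + (-1 : ℂ) • ∑ k, M.cl α k • M.b k i z) β = 0 := by
      rw [← wint_exact hSt (M.ex α hα) hβ]
      refine wint_congr (fun i z _ => l2_ext fun u v => ?_) fun i z _ => rfl
      show α i z u v + (-1 : ℂ) * (∑ k, M.cl α k • M.b k i z) u v =
        α i z u v - (∑ k, M.cl α k • M.b k i z) u v
      ring
    rw [h3, wint_sum Finset.univ (M.cl α) (fun k _ => M.closed k) hβ] at h2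
    linear_combination -h2
  rw [key hα hβ]
  unfold bil
  refine Finset.sum_congr rfl fun k _ => ?_
  rw [wint_comm, key hβ (M.closed k), Finset.mul_sum]
  refine Finset.sum_congr rfl fun l _ => ?_
  rw [hB' k l, wint_comm (M.b l)]
  ring

/-! ### Holomorphic 2-forms -/

theorem holD_zero : HolD S (fun _ _ => 0) where
  hol _ := differentiableOn_const _
  change _ _ _ _ _ _ _ _ _ _ := by simp

theorem holD_add_smul {s s' : Fin S.N → Cm 2 → ℂ} (h : HolD S s) (h' : HolD S s') (c : ℂ) :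
    HolD S (fun i z => s i z + c * s' i z) where
  hol i := (h.hol i).add ((differentiableOn_const c).mul (h'.hol i))
  change i j z hz z' hz' θ h1 h2 h3 := by
    rw [h.change i j z hz z' hz' θ h1 h2 h3, h'.change i j z hz z' hz' θ h1 h2 h3]
    ring

theorem cl_sf_add_smul {n : ℕ} (M : Mark2 S n) {s s' : Fin S.N → Cm 2 → ℂ} (h : HolD S s)
    (h' : HolD S s') (c : ℂ) : M.cl (fun i z => sf2 (s i z + c * s' i z)) =
      M.cl (fun i z => sf2 (s i z)) + c • M.cl (fun i z => sf2 (s' i z)) := by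
  rw [← cl_add_smul M (H702.TS.hol_cl2 h) (H702.TS.hol_cl2 h')]
  exact cl_congr M (H702.TS.hol_cl2 (holD_add_smul h h' c)) fun i z _ => sf2_add_smul _ _ _

theorem sf2_zero : sf2 0 = 0 := l2_ext fun u v => by
  show (0 : ℂ) * (u 0 * v 1 - u 1 * v 0) = 0
  ring

theorem cl_sf_zero {n : ℕ} (M : Mark2 S n) {s : Fin S.N → Cm 2 → ℂ}
    (h : ∀ i, ∀ z ∈ ball (0 : Cm 2) 3, s i z = 0) : M.cl (fun i z => sf2 (s i z)) = 0 := by
  rw [← cl_zero M]
  exact (cl_congr M cl2_zero fun i z hz => by rw [h i z hz, sf2_zero]).symm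

/-- The form `sf2 s + conj (sf2 s) + c kf2 w`. -/
def sk (s : Fin S.N → Cm 2 → ℂ) (w : Fin S.N → Cm 2 → Matrix (Fin 2) (Fin 2) ℂ) (c : ℝ)
    (i : Fin S.N) (z : Cm 2) : L2 2 :=
  sf2 (s i z) + cj2 2 (sf2 (s i z)) + (c : ℂ) • kf2 (w i z)

variable {w : Fin S.N → Cm 2 → Matrix (Fin 2) (Fin 2) ℂ}

theorem cl2_sk {s : Fin S.N → Cm 2 → ℂ} (hs : HolD S s) (hw : Kah S w) (c : ℝ) :
    Cl2 S (sk s w c) :=
  cl2_add_smul (cl2_add (H702.TS.hol_cl2 hs) (cl2_conj (H702.TS.hol_cl2 hs)))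
    (H702.TS.kah_cl2 hw) (c : ℂ)

theorem cl_sk {n : ℕ} (M : Mark2 S n) {s : Fin S.N → Cm 2 → ℂ} (hs : HolD S s) (hw : Kah S w)
    (c : ℝ) (k : Fin n) : M.cl (sk s w c) k =
      ((2 * (M.cl (fun i z => sf2 (s i z)) k).re + c * (M.cl (fun i z => kf2 (w i z)) k).re : ℝ) :
        ℂ) := by
  have h1 := cl_add_smul M (cl2_add (H702.TS.hol_cl2 hs) (cl2_conj (H702.TS.hol_cl2 hs)))
    (H702.TS.kah_cl2 hw) (c : ℂ)
  have h2 := cl_add M (H702.TS.hol_cl2 hs) (cl2_conj (H702.TS.hol_cl2 hs))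
  have h3 := cl_conj M (H702.TS.hol_cl2 hs)
  have h4 := cl_im M (H702.TS.kah_cl2 hw) (H702.TS.kah_real2 hw) k
  have h5 : M.cl (sk s w c) k = M.cl (fun i z => sf2 (s i z)) k +
      conj (M.cl (fun i z => sf2 (s i z)) k) + (c : ℂ) * M.cl (fun i z => kf2 (w i z)) k := by
    have h6 := congrFun h1 k
    rw [h2, h3] at h6
    exact h6
  rw [h5]
  apply Complex.ext
  · simp [h4]; ring
  · simp [h4]

theorem wd_sk (s : Fin S.N → Cm 2 → ℂ) (hw : Kah S w) (c : ℝ) (i : Fin S.N) {z : Cm 2}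
    (hz : z ∈ ball (0 : Cm 2) 3) : wd (sk s w c i z) (sk s w c i z) =
      ((8 * ‖s i z‖ ^ 2 + 2 * c ^ 2 * (w i z).det.re : ℝ) : ℂ) ∧ 0 < (w i z).det.re := by
  have hd := (hw.posDef i z hz).det_pos
  have hd1 : 0 < (w i z).det.re := (Complex.lt_def.1 hd).1
  have hd2 : (w i z).det.im = 0 := (Complex.lt_def.1 hd).2.symm
  have hd3 : (w i z).det = (((w i z).det.re : ℝ) : ℂ) := Complex.ext rfl (by simp [hd2])
  refine ⟨?_, hd1⟩
  unfold sk
  rw [wd_sq]
  have h1 : wd (cj2 2 (sf2 (s i z))) (kf2 (w i z)) = 0 := by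
    have := cj2_of_real (H702.TS.kah_real2 hw) i hz
    rw [← this, wd_cj, wd_sf_kf, map_zero]
  rw [h1, mul_assoc 8, Complex.mul_conj, Complex.normSq_eq_norm_sq, hd3]
  push_cast
  simp
  ring

theorem wint_sk_pos [Subsingleton Γ] {s : Fin S.N → Cm 2 → ℂ} (hs : HolD S s) (hw : Kah S w) (c : ℝ)
    (hE : Nonempty E) (hne : (∃ i, ∃ z ∈ ball (0 : Cm 2) 3, s i z ≠ 0) ∨ c ≠ 0) :
    0 < (wint S (sk s w c) (sk s w c)).re := by
  have h1 : wint S (sk s w c) (sk s w c) = S.int fun i z =>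
      ((8 * ‖s i z‖ ^ 2 + 2 * c ^ 2 * (w i z).det.re : ℝ) : ℂ) :=
    int_congr fun i z hz => (wd_sk s hw c i hz).1
  rw [h1]
  have hsc : ∀ i, ContinuousOn (s i) (ball 0 3) := fun i => (hs.hol i).continuousOn
  have hwc : ∀ i, ContinuousOn (fun z => (w i z).det) (ball 0 3) := fun i => by
    have : (fun z => (w i z).det) = fun z => w i z 0 0 * w i z 1 1 - w i z 0 1 * w i z 1 0 := by
      funext z; exact Matrix.det_fin_two _
    rw [this]
    have h2 : ∀ j k, ContinuousOn (fun z => w i z j k) (ball 0 3) := fun j k =>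
      (hw.smooth i j k).continuousOn
    exact ((h2 _ _).mul (h2 _ _)).sub ((h2 _ _).mul (h2 _ _))
  have hpt : ∃ i, ∃ z ∈ ball (0 : Cm 2) 3, (8 * ‖s i z‖ ^ 2 + 2 * c ^ 2 * (w i z).det.re : ℝ) ≠ 0 := by
    rcases hne with ⟨i, z, hz, h⟩ | h
    · refine ⟨i, z, hz, ne_of_gt ?_⟩
      have h2 : 0 < ‖s i z‖ ^ 2 := by positivity
      have h3 := (wd_sk s hw c i hz).2
      have h4 : 0 ≤ 2 * c ^ 2 * (w i z).det.re := by positivity
      linarith
    · obtain ⟨e⟩ := hE
      obtain ⟨γ, i, z, hz, -⟩ := S.cover e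
      have hz3 : z ∈ ball (0 : Cm 2) 3 := by simp only [mem_ball, dist_zero_right]; linarith
      refine ⟨i, z, hz3, ne_of_gt ?_⟩
      have h3 := (wd_sk s hw c i hz3).2
      positivity
  refine int_pos S (fun i z => 8 * ‖s i z‖ ^ 2 + 2 * c ^ 2 * (w i z).det.re) ?_ ?_ ?_ hpt
  · intro i
    have h2 : ContinuousOn (fun z => (w i z).det.re) (ball 0 3) :=
      Complex.continuous_re.comp_continuousOn (hwc i)
    have h3 : ContinuousOn (fun z => ‖s i z‖ ^ 2) (ball 0 3) := (hsc i).norm.pow 2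
    exact (continuousOn_const.mul h3).add (continuousOn_const.mul h2)
  · intro i z hz
    have h3 := (wd_sk s hw c i hz).2
    positivity
  · intro i j z hz z' hz' he h
    have h3 := (wd_sk s hw c j hz').2
    by_cases hc : c = 0
    · subst hc
      have h4 : s i z ≠ 0 := by
        intro h5; apply h; simp [h5]
      obtain ⟨θ, k1, k2, k3⟩ := S.hol i j z hz z' hz' 1 (by rw [one_smul]; exact he)
      have h5 := hs.change i j z hz z' hz' θ k1 k2 (k3.mono fun u hu => by rw [hu, one_smul])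
      have h6 : s j z' ≠ 0 := by
        intro h7; rw [h7, zero_mul] at h5; exact h4 h5
      have h7 : 0 < ‖s j z'‖ ^ 2 := by positivity
      simp only [ne_eq, OfNat.ofNat_ne_zero, not_false_eq_true, zero_pow, mul_zero, zero_mul,
        add_zero]
      positivity
    · have h7 : 0 < 2 * c ^ 2 * (w j z').det.re := by positivity
      have h8 : 0 ≤ 8 * ‖s j z'‖ ^ 2 := by positivity
      exact ne_of_gt (by linarith)

end

end Vale.Agent.P281.H747.TS
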